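import Vale.Agent.P202.Mixed.Defs

/-!
# P202 mixed characteristic: the interfaces between the modules

Each definition is the statement that one module of the development proves.
-/

noncomputable section

namespace Vale.Agent.P202.Mixed

open IsLocalRing Filter
open scoped ENNReal

universe u

/-- Graded slice complexes exist for all shifts. -/
def SliceStatement : Prop :=
  ∀ (R : Type u) [CommRing R] [IsLocalRing R] (n : ℕ) (c : Fin n → ℤ), 1 ≤ n →
    Nonempty (SliceCx R c)

/-- Stable vanishing of the positive homology on almost free modules. -/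
def StableStatement : Prop :=
  ∀ (B : Type u) [CommRing B] [IsLocalRing B] [IsNoetherianRing B] (d : ℕ), 1 ≤ d →
    ∀ (x : Fin d → B), (∃ r, maximalIdeal B ^ r ≤ Ideal.span (Set.range x)) →
    ∀ (G : FreeCx B), G.LengthLE d → NullPowers G x →
    ∀ (Q K c : ℕ), 1 ≤ Q → 1 ≤ K → (c = 0 ∨ (c < K ∧ G.EntriesIn (maximalIdeal B))) →
    ∃ Δ : ℕ, ∀ w : ℕ, ∃ v₀ : ℕ, ∀ v, v₀ ≤ v → ∃ C : ℕ,
    ∀ (M : Type u) [AddCommGroup M] [Module (Rz B d) M] [Module B M]
      [IsScalarTower B (Rz B d) M] (D₁ E : ℕ), AlmostFree B M x Q K v D₁ E →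
    ∀ i : ℤ, 1 ≤ i →
      stabLen B (d := d) M G K c (w : ℤ) ((w + Δ : ℕ) : ℤ) i ≤ ((C * E : ℕ) : ℕ∞)

/-- The window inequality. -/
def WindowStatement : Prop :=
  ∀ (B : Type u) [CommRing B] [IsLocalRing B] [IsNoetherianRing B] (d : ℕ), 2 ≤ d →
    ∀ (x : Fin d → B), (∀ a, x a ∈ maximalIdeal B) →
      (∃ r, maximalIdeal B ^ r ≤ Ideal.span (Set.range x)) →
    ∀ (G : FreeCx B), G.LengthLE d → G.EntriesIn (maximalIdeal B) → NullPowers G x →
    ∃ C₁ : ℕ, ∀ (Q K : ℕ), 2 ≤ K → K ≤ Q → ∃ v₀ : ℕ, ∀ v, v₀ ≤ v → ∃ C : ℕ,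
    ∀ (M : Type u) [AddCommGroup M] [Module (Rz B d) M] [Module B M]
      [IsScalarTower B (Rz B d) M] (D₁ E : ℕ), AlmostFree B M x Q K v D₁ E →
      ((G.rank 0 * D₁ * (K - 1) ^ d : ℕ) : ℕ∞) ≤
        hLen B M G 0 + ((C * E + C₁ * D₁ * K ^ (d - 1) : ℕ) : ℕ∞)

/-- The untilts give chains with arbitrarily small relative error. -/
def ChainStatement : Prop :=
  ∀ (p : ℕ) [Fact p.Prime] (L : Type u) [Field L] [CharP L p] [IsAlgClosed L] (d : ℕ), 1 ≤ d →
    ∀ (B : Type u) [CommRing B] [IsLocalRing B] [IsNoetherianRing B]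
      [Algebra (MvPowerSeries (Fin (d + 1)) (WittVector p L)) B] (D : ℕ)
      (Mo : Model p B (C := WittVector p L) (d := d) D),
    ∀ (c K : ℕ), 1 ≤ K → K + d + 4 ≤ p ^ c → ∀ (v n₀ : ℕ), ∃ D₁ E : ℕ, 0 < D₁ ∧ n₀ * E ≤ D₁ ∧
      Nonempty (Chain B (modelX B (WittVector p L) (d := d)) Mo.h D (p ^ c) K v D₁ E)

/-- The multiplicity bound for a finite module of finite projective dimension over a model. -/
def MainStatement : Prop :=
  ∀ (p : ℕ) [Fact p.Prime] (L : Type u) [Field L] [CharP L p] [IsAlgClosed L] (d : ℕ), 1 ≤ d →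
    ∀ (B : Type u) [CommRing B] [IsLocalRing B] [IsNoetherianRing B]
      [Algebra (MvPowerSeries (Fin (d + 1)) (WittVector p L)) B] (D : ℕ)
      (Mo : Model p B (C := WittVector p L) (d := d) D),
    ∀ (T : Type u) [CommRing T] [IsLocalRing T] [Algebra B T],
      Function.Surjective (algebraMap B T) →
    ∀ (s e : ℕ), 1 ≤ e → s + e = d + 1 →
    ∀ (Φ : NC.Reso B T), Φ.F.LengthLE s →
    (∃ c₀ : ℕ, ∀ N : ℕ, Module.length T (T ⧸ (Ideal.span {algebraMap B T Mo.h} ⊔
        maximalIdeal T ^ N)) * ((N + 1 : ℕ) : ℕ∞) ≤ (c₀ : ℕ∞) * (((N + 1) ^ e : ℕ) : ℕ∞)) →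
    ∀ (y : Fin e → T), (∀ i, y i ∈ maximalIdeal T) →
      (∃ r, maximalIdeal T ^ r ≤ Ideal.span (Set.range y)) →
    ∀ (E C : ℕ), (∀ N : ℕ, Module.length T (T ⧸ Ideal.span (Set.range fun i => y i ^ N)) ≤
        ((E * N ^ e + C * (N + 1) ^ (e - 1) : ℕ) : ℕ∞)) → D ≤ E

/-- Cohen rings exist for every field of characteristic `p`. -/
def CohenStatement : Prop :=
  ∀ (p : ℕ) [Fact p.Prime] (k : Type u) [Field k] [CharP k p],
    ∃ (C : Type u) (_ : CommRing C) (_ : IsLocalRing C),
      IsCohen p C ∧ Nonempty (ResidueField C ≃+* k)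

/-- Power series over a Cohen ring map flatly into power series over Witt vectors. -/
def SeriesFlatStatement : Prop :=
  ∀ (p : ℕ) [Fact p.Prime] (C : Type u) [CommRing C] [IsLocalRing C], IsCohen p C →
    ∀ (L : Type u) [Field L] [CharP L p] [PerfectRing L p] (m m' : ℕ)
      (θ : C →+* MvPowerSeries (Fin m') (WittVector p L)),
      (∀ a ∈ maximalIdeal C, ¬ IsUnit (θ a)) → ∀ (emb : Fin m → Fin m'), Function.Injective emb →
    ∃ ψ : MvPowerSeries (Fin m) C →+* MvPowerSeries (Fin m') (WittVector p L),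
      (∀ a, ψ (MvPowerSeries.C a) = θ a) ∧
      (∀ i, ψ (MvPowerSeries.X i) = MvPowerSeries.X (emb i)) ∧ ψ.Flat

/-- A complete domain of mixed characteristic has a model whose degree bounds the multiplicity. -/
def SourceStatement : Prop :=
  ∀ (p : ℕ) [Fact p.Prime] (C : Type u) [CommRing C] [IsLocalRing C], IsCohen p C →
    ∀ (A : Type u) [CommRing A] [IsLocalRing A] [IsNoetherianRing A] [IsDomain A]
      [IsAdicComplete (maximalIdeal A) A] [Infinite (ResidueField A)],
    (p : A) ≠ 0 → (p : A) ∈ maximalIdeal A →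
    ∀ (θ : C →+* A), IsLocalHom θ → (∀ a, ∃ c, a - θ c ∈ maximalIdeal A) →
    ∀ (d : ℕ), dimNat A = d + 1 →
    ∃ (_ : Algebra (MvPowerSeries (Fin (d + 1)) C) A) (D : ℕ),
      (∀ c, algebraMap (MvPowerSeries (Fin (d + 1)) C) A (MvPowerSeries.C c) = θ c) ∧
      Nonempty (Model p A (C := C) (d := d) D) ∧ limsup (hsSeq A) atTop ≤ (D : ℝ≥0∞)

/-- A target of a model is a quotient of a model over Witt vectors of finite projective
dimension. -/
def ChartStatement : Prop :=
  ∀ (p : ℕ) [Fact p.Prime] (C : Type u) [CommRing C] [IsLocalRing C], IsCohen p C →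
    ∀ (A : Type u) [CommRing A] [IsLocalRing A] [IsNoetherianRing A] [IsDomain A]
      [IsAdicComplete (maximalIdeal A) A] (d : ℕ), dimNat A = d + 1 →
    ∀ [Algebra (MvPowerSeries (Fin (d + 1)) C) A] (D : ℕ)
      (_ : Model p A (C := C) (d := d) D),
    ∀ (T : Type u) [CommRing T] [IsLocalRing T] [IsNoetherianRing T]
      [IsAdicComplete (maximalIdeal T) T] [IsAlgClosed (ResidueField T)] (g : A →+* T),
      IsLocalHom g → g.Flat → (∃ r, maximalIdeal T ^ r ≤ (maximalIdeal A).map g) →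
    ∃ (L : Type u) (_ : Field L) (_ : CharP L p) (_ : IsAlgClosed L) (d' s : ℕ)
      (B : Type u) (_ : CommRing B) (_ : IsLocalRing B) (_ : IsNoetherianRing B)
      (_ : Algebra (MvPowerSeries (Fin (d' + 1)) (WittVector p L)) B) (_ : Algebra B T)
      (Mo : Model p B (C := WittVector p L) (d := d') D) (Φ : NC.Reso B T),
      1 ≤ d' ∧ s + (d + 1) = d' + 1 ∧ Function.Surjective (algebraMap B T) ∧ Φ.F.LengthLE s ∧
      ∃ c₀ : ℕ, ∀ N : ℕ, Module.length T (T ⧸ (Ideal.span {algebraMap B T Mo.h} ⊔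
        maximalIdeal T ^ N)) * ((N + 1 : ℕ) : ℕ∞) ≤ (c₀ : ℕ∞) * (((N + 1) ^ (d + 1) : ℕ) : ℕ∞)

/-- A local ring has parameters whose box lengths grow at most like its multiplicity. -/
def BoxStatement : Prop :=
  ∀ (T : Type u) [CommRing T] [IsLocalRing T] [IsNoetherianRing T] [Infinite (ResidueField T)]
    (e : ℕ), 1 ≤ e → dimNat T = e →
    ∃ (y : Fin e → T) (E C : ℕ), (∀ i, y i ∈ maximalIdeal T) ∧
      (∃ r, maximalIdeal T ^ r ≤ Ideal.span (Set.range y)) ∧
      (E : ℝ≥0∞) ≤ liminf (hsSeq T) atTop ∧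
      ∀ N : ℕ, Module.length T (T ⧸ Ideal.span (Set.range fun i => y i ^ N)) ≤
        ((E * N ^ e + C * (N + 1) ^ (e - 1) : ℕ) : ℕ∞)

/-- Lech's inequality for complete domains of mixed characteristic and complete targets with fibre
of finite length and algebraically closed residue field. -/
def DomainLech : Prop :=
  ∀ (p : ℕ) [Fact p.Prime] (A : Type u) [CommRing A] [IsLocalRing A] [IsNoetherianRing A]
    [IsDomain A] [IsAdicComplete (maximalIdeal A) A] [Infinite (ResidueField A)],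
    (p : A) ≠ 0 → (p : A) ∈ maximalIdeal A →
    ∀ (T : Type u) [CommRing T] [IsLocalRing T] [IsNoetherianRing T]
      [IsAdicComplete (maximalIdeal T) T] [IsAlgClosed (ResidueField T)] (g : A →+* T),
      IsLocalHom g → g.Flat → (∃ r, maximalIdeal T ^ r ≤ (maximalIdeal A).map g) →
    limsup (hsSeq A) atTop ≤ liminf (hsSeq T) atTop

/-- The same for every complete source with residue characteristic `p`. -/
def CompleteLech : Prop :=
  ∀ (p : ℕ) [Fact p.Prime] (A : Type u) [CommRing A] [IsLocalRing A] [IsNoetherianRing A]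
    [IsAdicComplete (maximalIdeal A) A] [Infinite (ResidueField A)],
    (p : A) ∈ maximalIdeal A →
    ∀ (T : Type u) [CommRing T] [IsLocalRing T] [IsNoetherianRing T]
      [IsAdicComplete (maximalIdeal T) T] [IsAlgClosed (ResidueField T)] (g : A →+* T),
      IsLocalHom g → g.Flat → (∃ r, maximalIdeal T ^ r ≤ (maximalIdeal A).map g) →
    limsup (hsSeq A) atTop ≤ liminf (hsSeq T) atTop

/-- Localisation at a prime containing `p`, of complementary dimension, does not raise the
multiplicity. -/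
def NagataStatement : Prop :=
  ∀ (p : ℕ) [Fact p.Prime] (B : Type u) [CommRing B] [IsLocalRing B] [IsNoetherianRing B]
    [IsAdicComplete (maximalIdeal B) B] [IsAlgClosed (ResidueField B)] (P : Ideal B) [P.IsPrime],
    (p : B) ∈ P → dimNat B ≤ dimNat (B ⧸ P) + dimNat (Localization.AtPrime P) →
    limsup (hsSeq (Localization.AtPrime P)) atTop ≤ liminf (hsSeq B) atTop

/-- A complete flat cover with algebraically closed residue field and the same maximal ideal. -/
def CoverStatement : Prop :=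
  ∀ (p : ℕ) [Fact p.Prime] (S : Type u) [CommRing S] [IsLocalRing S] [IsNoetherianRing S],
    (p : S) ∈ maximalIdeal S →
    ∃ (B : Type u) (_ : CommRing B) (_ : IsLocalRing B) (_ : IsNoetherianRing B)
      (_ : IsAdicComplete (maximalIdeal B) B) (f : S →+* B),
      IsAlgClosed (ResidueField B) ∧ IsLocalHom f ∧ f.Flat ∧
      (maximalIdeal S).map f = maximalIdeal B

/-- Lech's conjecture. -/
def LechStatement : Prop :=
  ∀ (R : Type u) [CommRing R] [IsNoetherianRing R] [IsLocalRing R]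
    (S : Type u) [CommRing S] [IsNoetherianRing S] [IsLocalRing S] [Algebra R S]
    [IsLocalHom (algebraMap R S)] [Module.Flat R S],
    limsup (hsSeq R) atTop ≤ liminf (hsSeq S) atTop

end Vale.Agent.P202.Mixed
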