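import Vale.Agent.P202.Base
import Vale.Agent.P202.Mult
import Vale.Agent.P202.RingSide.Hilbert
import Vale.Agent.P202.NC.Reso

/-!
# P202 mixed characteristic: definitions

Almost free modules of finite length over `B[Z_1, ..., Z_d]`, the weight filtration, the slice
complexes of the window, the models of a local ring over power series over a coefficient ring, and
the chains of modules built from the untilts.
-/

noncomputable section

namespace Vale.Agent.P202.Mixed

open IsLocalRing MvPolynomial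

universe u

/-- Polynomials over `B` in the `d` operators. -/
abbrev Rz (B : Type u) [CommRing B] (d : ℕ) : Type u := MvPolynomial (Fin d) B

section Weight

variable (B : Type u) [CommRing B]

/-- The ideal of the operators. -/
def zIdeal (d : ℕ) : Ideal (Rz B d) :=
  Ideal.span (Set.range (MvPolynomial.X : Fin d → Rz B d))

variable [IsLocalRing B]

/-- The weight ideal: the maximal ideal of `B` has weight `K`, each operator weight `1`. -/
def wIdeal (d K : ℕ) (u : ℤ) : Ideal (Rz B d) :=
  ⨆ (a : ℕ) (b : ℕ) (_ : u ≤ ((a * K + b : ℕ) : ℤ)),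
    (maximalIdeal B ^ a).map MvPolynomial.C * zIdeal B d ^ b

variable {d : ℕ} (M : Type u) [AddCommGroup M] [Module (Rz B d) M]

/-- The weight filtration of a module. -/
def fil (K : ℕ) (u : ℤ) : Submodule (Rz B d) M := wIdeal B d K u • (⊤ : Submodule (Rz B d) M)

variable [Module B M] [IsScalarTower B (Rz B d) M]

/-- Almost free modules of finite length: `Z ^ v` kills, there are about `D₁` generators, the
length is about that of `D₁` truncated polynomial rings, and the maximal ideal of `B` maps almost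
into `Z ^ K`; the errors are at most `E`. -/
structure AlmostFree (x : Fin d → B) (Q K v D₁ E : ℕ) : Prop where
  finite : Module.length B M ≠ ⊤
  x_smul : ∀ (a : Fin d) (m : M), x a • m = (MvPolynomial.X a : Rz B d) ^ Q • m
  top_smul : zIdeal B d ^ v • (⊤ : Submodule (Rz B d) M) = ⊥
  upper : Module.length B (M ⧸ (zIdeal B d • (⊤ : Submodule (Rz B d) M))) ≤ ((D₁ + E : ℕ) : ℕ∞)
  lower : ((D₁ * monCount d v : ℕ) : ℕ∞) ≤ Module.length B M + (E : ℕ∞)
  deep : Module.length B ↥(Submodule.map
      ((zIdeal B d ^ K • (⊤ : Submodule (Rz B d) M)).restrictScalars B).mkQ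
      (maximalIdeal B • (⊤ : Submodule B M))) ≤ (E : ℕ∞)

variable (G : FreeCx B)

/-- The length of the homology of `G ⊗ M`. -/
def hLen (j : ℤ) : ℕ∞ := Module.length B ((G.diff M B).H ⊤ ⊥ j)

/-- The levels on `G ⊗ M`: position `i` is shifted by `c * i`. -/
def filG (K c : ℕ) (u : ℤ) : Submodule B (G.ι → M) where
  carrier := {f | ∀ g, f g ∈ fil B M K (u - ((c * G.pos g : ℕ) : ℤ))}
  add_mem' {f f'} hf hf' g := add_mem (hf g) (hf' g)
  zero_mem' g := zero_mem _
  smul_mem' r f hf g := by
    rw [Pi.smul_apply, ← IsScalarTower.algebraMap_smul (Rz B d) r (f g)]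
    exact Submodule.smul_mem _ _ (hf g)

/-- The length of the image of the relative homology modulo level `w'` in that modulo level `w`. -/
def stabLen (K c : ℕ) (w w' : ℤ) (i : ℤ) : ℕ∞ :=
  Module.length B ↥(Submodule.map ((G.diff M B).bdries ⊤ (filG B (d := d) M G K c w) i).mkQ
    ((G.diff M B).cycles ⊤ (filG B (d := d) M G K c w') i))

end Weight

section Null

variable {B : Type u} [CommRing B] {d : ℕ}

/-- A common power of each of the elements is null homotopic on the complex. -/
def NullPowers (G : FreeCx B) (x : Fin d → B) : Prop :=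
  ∃ m : ℕ, 0 < m ∧ ∀ a : Fin d, ∃ s : Matrix G.ι G.ι B,
    (∀ h g, s h g ≠ 0 → G.pos h = G.pos g + 1) ∧
      G.mat * s + s * G.mat = x a ^ m • (1 : Matrix G.ι G.ι B)

end Null

section Slices

variable (A : Type u) [CommRing A]

/-- Homogeneous polynomials of an integer degree. -/
def homInt (d : ℕ) (u : ℤ) : Submodule A (MvPolynomial (Fin d) A) :=
  if 0 ≤ u then MvPolynomial.homogeneousSubmodule (Fin d) A u.toNat else ⊥

/-- The sign in the Koszul complex. -/
def kosSign {d : ℕ} (S : Finset (Fin d)) (a : Fin d) : ℤ :=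
  (-1) ^ (S.filter fun b => b < a).card

variable {A}

/-- The matrix of the Koszul cochain complex, from `S` to `S ∪ {a}`. -/
def kosMat {d : ℕ} (z : Fin d → A) : Matrix (Finset (Fin d)) (Finset (Fin d)) A :=
  Matrix.of fun T S =>
    ∑ a ∈ Finset.univ.filter (fun a => a ∉ S ∧ T = insert a S), kosSign S a • z a

theorem kosMat_pos {d : ℕ} (z : Fin d → A) (T S : Finset (Fin d)) (h : kosMat z T S ≠ 0) :
    d - S.card = d - T.card + 1 := by
  rw [kosMat, Matrix.of_apply] at h
  obtain ⟨a, ha, -⟩ := Finset.exists_ne_zero_of_sum_ne_zero h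
  obtain ⟨haS, rfl⟩ := (Finset.mem_filter.1 ha).2
  have h1 : (insert a S).card ≤ Fintype.card (Fin d) := Finset.card_le_univ _
  rw [Finset.card_insert_of_notMem haS, Fintype.card_fin] at h1
  rw [Finset.card_insert_of_notMem haS]
  omega

theorem kosSign_swap {d : ℕ} (S : Finset (Fin d)) {a b : Fin d} (ha : a ∉ S) (hb : b ∉ S)
    (hab : a ≠ b) :
    kosSign S a * kosSign (insert a S) b + kosSign S b * kosSign (insert b S) a = 0 := by
  have key : ∀ {u v : Fin d}, u ∉ S → (((insert u S).filter fun c => c < v).card) =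
      (S.filter fun c => c < v).card + if u < v then 1 else 0 := fun {u v} hu => by
    rw [Finset.filter_insert]
    split_ifs with h
    · rw [Finset.card_insert_of_notMem fun hh => hu (Finset.mem_filter.1 hh).1]
    · rfl
  rcases lt_or_gt_of_ne hab with h | h
  · simp only [kosSign, key ha, key hb, if_pos h, if_neg (not_lt.2 h.le)]
    ring
  · simp only [kosSign, key ha, key hb, if_pos h, if_neg (not_lt.2 h.le)]
    ring

theorem kosMat_sq {d : ℕ} (z : Fin d → A) : kosMat z * kosMat z = 0 := by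
  classical
  ext U S
  let F : Fin d × Fin d → A := fun q =>
    if q.1 ∉ S ∧ q.2 ∉ insert q.1 S ∧ U = insert q.2 (insert q.1 S) then
      (kosSign (insert q.1 S) q.2 • z q.2) * (kosSign S q.1 • z q.1) else 0
  have e : (kosMat z * kosMat z) U S = ∑ q : Fin d × Fin d, F q := by
    simp only [Matrix.mul_apply, kosMat, Matrix.of_apply, Finset.sum_filter, Finset.mul_sum]
    rw [Finset.sum_comm, Fintype.sum_prod_type]
    refine Finset.sum_congr rfl fun a _ => ?_
    rw [Fintype.sum_eq_single (insert a S) fun T hT => by simp [hT], Finset.sum_mul]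
    refine Finset.sum_congr rfl fun b _ => ?_
    simp only [F, and_true]
    split_ifs <;> first | rfl | simp_all
  rw [e, Matrix.zero_apply]
  refine Finset.sum_involution (fun q _ => q.swap) (fun q _ => ?_) (fun q _ hq hs => ?_)
    (fun _ _ => Finset.mem_univ _) (fun _ _ => Prod.swap_swap _)
  · obtain ⟨a, b⟩ := q
    simp only [F, Prod.swap, Finset.mem_insert, not_or]
    by_cases h : a ∉ S ∧ b ∉ S ∧ a ≠ b ∧ U = insert b (insert a S)
    · obtain ⟨ha, hb, hab, hU⟩ := h
      have hU' : U = insert a (insert b S) := by rw [hU, Finset.insert_comm]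
      rw [if_pos ⟨ha, ⟨hab.symm, hb⟩, hU⟩, if_pos ⟨hb, ⟨hab, ha⟩, hU'⟩]
      simp only [zsmul_eq_mul]
      have hs := congrArg (fun i : ℤ => (i : A)) (kosSign_swap S ha hb hab)
      simp only [Int.cast_add, Int.cast_mul, Int.cast_zero] at hs
      linear_combination (z a * z b) * hs
    · rw [if_neg fun h' => h ⟨h'.1, h'.2.1.2, Ne.symm h'.2.1.1, h'.2.2⟩,
        if_neg fun h' => h ⟨h'.2.1.2, h'.1, h'.2.1.1,
          by rw [h'.2.2, Finset.insert_comm]⟩, add_zero]
  · obtain ⟨a, b⟩ := q
    have hab : b = a := congrArg Prod.fst hs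
    subst hab
    simp [F] at hq

/-- The Koszul cochain complex, a subset `S` in position `d - |S|`. -/
def kosCx {d : ℕ} (z : Fin d → A) : FreeCx A where
  ι := Finset (Fin d)
  pos S := d - S.card
  mat := kosMat z
  mat_pos := kosMat_pos z
  sq := kosMat_sq z

end Slices

section SliceComplex

variable (R : Type u) [CommRing R] [IsLocalRing R] {n : ℕ}

/-- The residue map on polynomials. -/
def polyResidue (d : ℕ) : Rz R d →+* MvPolynomial (Fin d) (ResidueField R) :=
  MvPolynomial.map (IsLocalRing.residue R)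

/-- The Koszul complex on the `B`-th powers of the operators. -/
def zKos (d B : ℕ) : FreeCx (Rz R d) := kosCx fun a => (MvPolynomial.X a : Rz R d) ^ B

/-- The levels of the basis of `zKos`. -/
def zKosLev {d : ℕ} (B : ℕ) (S : Finset (Fin d)) : ℤ := -((B * S.card : ℕ) : ℤ)

/-- Elements of total degree `t` for given degrees of the basis. -/
def degPiece (k : Type u) [Field k] {d : ℕ} {ι : Type} (deg : ι → ℤ) (t : ℤ) :
    Submodule k (ι → MvPolynomial (Fin d) k) :=
  Submodule.pi Set.univ fun g => homInt k d (t - deg g)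

/-- The local cohomology of the sheaf with shifts `c` in degree `t` and position `j`. -/
def sliceDim (c : Fin n → ℤ) (t j : ℤ) : ℕ :=
  if (∀ a, t + c a ≠ 0) ∧ 1 ≤ (Finset.univ.filter fun a => t + c a < 0).card ∧
      j = -(((Finset.univ.filter fun a => t + c a < 0).card : ℤ) + 1)
  then (∏ a, (t + c a)).natAbs else 0

/-- The sections of the sheaf with shifts `c` in degree `t`, placed in position `0`. -/
def sectionDim (c : Fin n → ℤ) (t j : ℤ) : ℕ :=
  if j = 0 ∧ ∀ a, 0 ≤ t + c a then (∏ a, (t + c a)).natAbs else 0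

/-- The transition from the `B`-th to the `B'`-th powers, on each basis vector. -/
def tauScalar (k : Type u) [CommRing k] {d : ℕ} (B B' : ℕ) (S : Finset (Fin d)) :
    MvPolynomial (Fin d) k :=
  ∏ a ∈ S, MvPolynomial.X a ^ (B' - B)

/-- A free complex over `R[Z_0, ..., Z_n]` resolving the sections of the sheaf with shifts `c` over
the residue field, with the slices of its local cohomology. -/
structure SliceCx (c : Fin n → ℤ) where
  F : FreeCx (Rz R (n + 1))
  deg : F.ι → ℤ
  homog : ∀ h g, F.mat h g ∈ homInt R (n + 1) (deg g - deg h)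
  euler : ∑ g : F.ι, (-1 : ℤ) ^ F.pos g = (n.factorial : ℤ)
  resolves : ∀ t j : ℤ,
    ((F.map (polyResidue R (n + 1))).diff (MvPolynomial (Fin (n + 1)) (ResidueField R))
      (ResidueField R)).betti (degPiece (ResidueField R) deg t) ⊥ j = sectionDim c t j
  B₀ : ℕ
  slices : ∀ B : ℕ, B₀ ≤ B → ∀ t : ℤ, -(B : ℤ) + B₀ ≤ t → ∀ j : ℤ,
    (((F.tensor (zKos R (n + 1) B)).map (polyResidue R (n + 1))).diff
      (MvPolynomial (Fin (n + 1)) (ResidueField R)) (ResidueField R)).betti
        (degPiece (ResidueField R) (fun q : F.ι × Finset (Fin (n + 1)) =>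
          deg q.1 + zKosLev B q.2) t) ⊥ (j + ((n + 1 : ℕ) : ℤ)) = sliceDim c t j
  transition : ∀ B B' : ℕ, B₀ ≤ B → B ≤ B' → ∀ t : ℤ, -(B : ℤ) + B₀ ≤ t → ∀ j : ℤ,
    Module.finrank (ResidueField R) ↥((((((F.tensor (zKos R (n + 1) B)).map
      (polyResidue R (n + 1))).diff (MvPolynomial (Fin (n + 1)) (ResidueField R))
        (ResidueField R)).cycles (degPiece (ResidueField R)
          (fun q : F.ι × Finset (Fin (n + 1)) => deg q.1 + zKosLev B q.2) t) ⊥
            (j + ((n + 1 : ℕ) : ℤ))).map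
      (LinearMap.pi fun q : F.ι × Finset (Fin (n + 1)) =>
        (LinearMap.mulLeft (ResidueField R) (tauScalar (ResidueField R) B B' q.2)).comp
          (LinearMap.proj q))).map
      ((((F.tensor (zKos R (n + 1) B')).map (polyResidue R (n + 1))).diff
        (MvPolynomial (Fin (n + 1)) (ResidueField R)) (ResidueField R)).bdries
          (degPiece (ResidueField R) (fun q : F.ι × Finset (Fin (n + 1)) =>
            deg q.1 + zKosLev B' q.2) t) ⊥ (j + ((n + 1 : ℕ) : ℤ))).mkQ) =
      sliceDim c t j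

end SliceComplex

section Coefficient

/-- A Cohen ring: a complete local ring with maximal ideal generated by the nonzerodivisor `p`,
with its two lifting properties. -/
structure IsCohen (p : ℕ) (C : Type u) [CommRing C] [IsLocalRing C] : Prop where
  max_eq : maximalIdeal C = Ideal.span {(p : C)}
  noetherian : IsNoetherianRing C
  complete : IsAdicComplete (maximalIdeal C) C
  p_regular : (p : C) ∈ nonZeroDivisors C
  lift : ∀ (W T : Type u) [CommRing W] [IsLocalRing W] [IsAdicComplete (maximalIdeal W) W]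
    [CommRing T] [IsLocalRing T] [IsAdicComplete (maximalIdeal T) T] (π : W →+* T) (f : C →+* T),
    Function.Surjective π → IsLocalHom f → ∃ f' : C →+* W, IsLocalHom f' ∧ π.comp f' = f
  exists_hom : ∀ (A : Type u) [CommRing A] [IsLocalRing A] [IsAdicComplete (maximalIdeal A) A]
    (e : ResidueField C →+* ResidueField A),
      ∃ f : C →+* A, IsLocalHom f ∧ ∀ c, residue A (f c) = e (residue C c)

variable (p : ℕ) (B : Type u) [CommRing B] [IsLocalRing B]

/-- The images of the variables. -/
def modelX (C : Type u) [CommRing C] {d : ℕ} [Algebra (MvPowerSeries (Fin (d + 1)) C) B]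
    (a : Fin (d + 1)) : B :=
  algebraMap (MvPowerSeries (Fin (d + 1)) C) B (MvPowerSeries.X a)

variable {C : Type u} [CommRing C] {d : ℕ} [Algebra (MvPowerSeries (Fin (d + 1)) C) B]

/-- A model of `B`: finite over power series with principal kernel, birational to that hypersurface
of degree `D` at the origin, with the variables generating a reduction. -/
structure Model (D : ℕ) where
  g : MvPowerSeries (Fin (d + 1)) C
  G : MvPowerSeries (Fin (d + 1)) C
  b : ℕ
  finite : Module.Finite (MvPowerSeries (Fin (d + 1)) C) B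
  residue_surj : ∀ r : B, ∃ c : C,
    r - algebraMap (MvPowerSeries (Fin (d + 1)) C) B (MvPowerSeries.C c) ∈ maximalIdeal B
  x_mem : ∀ a, modelX B C (d := d) a ∈ maximalIdeal B
  ker_eq : RingHom.ker (algebraMap (MvPowerSeries (Fin (d + 1)) C) B) = Ideal.span {g}
  g_const : ∃ u : Cˣ, MvPowerSeries.constantCoeff g = (p : C) ^ D * (u : C)
  g_regular : ∃ e : ℕ, ¬ (p : C) ∣ MvPowerSeries.coeff (Finsupp.single 0 e) g
  G_indep : ∀ t : Fin (d + 1) →₀ ℕ, t 0 ≠ 0 → MvPowerSeries.coeff t G = 0
  G_nonzero : ∃ t : Fin (d + 1) →₀ ℕ, ¬ (p : C) ∣ MvPowerSeries.coeff t G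
  cokilled : ∀ r : B, ∃ π : MvPowerSeries (Fin (d + 1)) C,
    algebraMap (MvPowerSeries (Fin (d + 1)) C) B π =
      algebraMap (MvPowerSeries (Fin (d + 1)) C) B ((p : MvPowerSeries (Fin (d + 1)) C) ^ b * G) * r
  reduction : ∃ r : ℕ, maximalIdeal B ^ (r + 1) ≤
    Ideal.span (Set.range (modelX B C (d := d))) * maximalIdeal B ^ r
  small : ∃ c₀ : ℕ, ∀ j : ℕ,
    Module.length (MvPowerSeries (Fin (d + 1)) C) (MvPowerSeries (Fin (d + 1)) C ⧸
      (Ideal.span {g, (p : MvPowerSeries (Fin (d + 1)) C) ^ b * G} ⊔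
        Ideal.span (Set.range (MvPowerSeries.X :
          Fin (d + 1) → MvPowerSeries (Fin (d + 1)) C)) ^ j)) * ((j + 1 : ℕ) : ℕ∞) ≤
      (c₀ : ℕ∞) * (((j + 1) ^ (d + 1) : ℕ) : ℕ∞)

variable {p B}

/-- The element multiplying `B` into the image of the power series. -/
def Model.h {D : ℕ} (Mo : Model p B (C := C) (d := d) D) : B :=
  algebraMap (MvPowerSeries (Fin (d + 1)) C) B ((p : MvPowerSeries (Fin (d + 1)) C) ^ Mo.b * Mo.G)

end Coefficient

section Chains

variable (B : Type u) [CommRing B] [IsLocalRing B] {d : ℕ}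

/-- The modules built from the untilts: `D` almost free modules `M l`, and a tower `X` of quotients
of length `D` whose successive kernels are compared with the levels of the `M l`. -/
structure Chain (x : Fin d → B) (h : B) (D Q K v D₁ E : ℕ) where
  M : ℕ → Type u
  [addM : ∀ l, AddCommGroup (M l)]
  [modM : ∀ l, Module (Rz B d) (M l)]
  [baseM : ∀ l, Module B (M l)]
  [towerM : ∀ l, IsScalarTower B (Rz B d) (M l)]
  almostFree : ∀ l, l < D → AlmostFree B (M l) x Q K v D₁ E
  gensM : ∀ l, l < D → ∃ s : Fin (D₁ * Q ^ d) → M l, Submodule.span B (Set.range s) = ⊤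
  lev : ∀ l, ℕ → Submodule (Rz B d) (M l)
  lev_ge : ∀ l w, l < D → w ≤ v → fil B (d := d) (M l) K ((w - l * K : ℕ) : ℤ) ≤ lev l w
  lev_anti : ∀ l w w', l < D → w ≤ w' → w' ≤ v → lev l w' ≤ lev l w
  lev_small : ∀ l w, l < D → w ≤ v → Module.length B ↥(Submodule.map
    ((fil B (d := d) (M l) K ((w - l * K : ℕ) : ℤ)).restrictScalars B).mkQ
      ((lev l w).restrictScalars B)) ≤ (E : ℕ∞)
  X : ℕ → ℕ → Type u
  [addX : ∀ l w, AddCommGroup (X l w)]
  [modX : ∀ l w, Module B (X l w)]
  zeroX : ∀ w, w ≤ v → Subsingleton (X 0 w)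
  proj : ∀ l w, X (l + 1) w →ₗ[B] X l w
  res : ∀ l w w', w ≤ w' → (X l w' →ₗ[B] X l w)
  proj_surj : ∀ l w, l < D → w ≤ v → Function.Surjective (proj l w)
  res_surj : ∀ l w w' (hw : w ≤ w'), l ≤ D → w' ≤ v → Function.Surjective (res l w w' hw)
  res_proj : ∀ l w w' (hw : w ≤ w'), l < D → w' ≤ v → ∀ z,
    res l w w' hw (proj l w' z) = proj l w (res (l + 1) w w' hw z)
  res_trans : ∀ l w w' w'' (hw : w ≤ w') (hw' : w' ≤ w''), l ≤ D → w'' ≤ v → ∀ z,
    res l w w' hw (res l w' w'' hw' z) = res l w w'' (hw.trans hw') z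
  gensX : ∀ w, w ≤ v → ∃ s : Fin (D₁ * Q ^ d) → X D w, Submodule.span B (Set.range s) = ⊤
  gensKer : ∀ l w, l < D → w ≤ v →
    ∃ s : Fin (D₁ * Q ^ d) → LinearMap.ker (proj l w), Submodule.span B (Set.range s) = ⊤
  toLev : ∀ l w, LinearMap.ker (proj l w) →ₗ[B] (M l ⧸ lev l w)
  ofLev : ∀ l w, (M l ⧸ lev l w) →ₗ[B] LinearMap.ker (proj l w)
  opM : ∀ l, M l →ₗ[Rz B d] M l
  opK : ∀ l w, LinearMap.ker (proj l w) →ₗ[B] LinearMap.ker (proj l w)
  opM_coker : ∀ l, l < D → Module.length B (M l ⧸ LinearMap.range (opM l)) ≤ (E : ℕ∞)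
  opK_coker : ∀ l w, l < D → w ≤ v →
    Module.length B (LinearMap.ker (proj l w) ⧸ LinearMap.range (opK l w)) ≤ (E : ℕ∞)
  to_of : ∀ l w, l < D → w ≤ v → ∀ m : M l,
    toLev l w (ofLev l w (Submodule.Quotient.mk m)) = h ^ 3 • Submodule.Quotient.mk (opM l m)
  of_to : ∀ l w, l < D → w ≤ v → ∀ z, ofLev l w (toLev l w z) = h ^ 3 • opK l w z
  to_res : ∀ l w w' (hw : w ≤ w'), l < D → w' ≤ v → ∀ (z : LinearMap.ker (proj l w'))
    (z' : LinearMap.ker (proj l w)), (z' : X (l + 1) w) = res (l + 1) w w' hw (z : X (l + 1) w') →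
      ∀ m : M l, toLev l w' z = Submodule.Quotient.mk m → toLev l w z' = Submodule.Quotient.mk m
  of_res : ∀ l w w' (hw : w ≤ w'), l < D → w' ≤ v → ∀ m : M l,
    res (l + 1) w w' hw (ofLev l w' (Submodule.Quotient.mk m) : X (l + 1) w') =
      (ofLev l w (Submodule.Quotient.mk m) : X (l + 1) w)

attribute [instance] Chain.addM Chain.modM Chain.baseM Chain.towerM Chain.addX Chain.modX

end Chains

end Vale.Agent.P202.Mixed
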