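import Vale.Agent.P202.Mixed.Interface
import Vale.Agent.P202.Imperfect.Tools
import Vale.Agent.P202.Reduce.CutForms

/-!
# P202 mixed characteristic: the case of a complete domain from the modules
-/

noncomputable section

namespace Vale.Agent.P202.Mixed

open IsLocalRing Filter
open scoped ENNReal

universe u

/-- Lech's inequality for complete domains of mixed characteristic, from the modules. -/
theorem domainLech (hC : CohenStatement.{u}) (hS : SourceStatement.{u}) (hT : ChartStatement.{u})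
    (hM : MainStatement.{u}) (hB : BoxStatement.{u}) : DomainLech.{u} := by
  intro p _ A _ _ _ _ _ _ hp0 hpm T _ _ _ _ _ g hgl hgf hr
  have hd0 : dimNat A ≠ 0 := fun h0 => by
    have h1 : ringKrullDim A ≤ 0 := by rw [coe_dimNat A, h0]; simp
    obtain ⟨r, hr⟩ := exists_pow_le_of_ringKrullDim_le_zero (⊥ : Ideal A)
      ((ringKrullDim_eq_of_ringEquiv (RingEquiv.quotientBot A)).trans_le h1)
    exact hp0 (pow_eq_zero_iff'.1 (Ideal.mem_bot.1 (hr (Ideal.pow_mem_pow hpm r)))).1
  obtain ⟨d, hd⟩ : ∃ d, dimNat A = d + 1 := ⟨dimNat A - 1, by omega⟩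
  have : CharP (ResidueField A) p := by
    refine (CharP.charP_iff_prime_eq_zero (Fact.out : p.Prime)).2 ?_
    rw [← map_natCast (residue A)]
    exact (residue_eq_zero_iff _).2 hpm
  obtain ⟨C, iC, iCl, hCo, ⟨e⟩⟩ := hC p (ResidueField A)
  obtain ⟨θ, hθl, hθ⟩ := hCo.exists_hom A e.toRingHom
  have hres : ∀ a, ∃ c, a - θ c ∈ maximalIdeal A := fun a => by
    obtain ⟨c, hc⟩ := residue_surjective (e.symm (residue A a))
    refine ⟨c, ?_⟩
    rw [← residue_eq_zero_iff, map_sub, hθ, hc]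
    simp
  obtain ⟨iAlg, D, -, ⟨Mo⟩, hup⟩ := hS p C hCo A hp0 hpm θ hθl hres d hd
  obtain ⟨L, iL, iLc, iLa, d', s, B, iB, iBl, iBn, iBA, iBT, MoB, Φ, hd', hsum, hsurj, hΦ, hthick⟩ :=
    hT p C hCo A d hd D Mo T g hgl hgf hr
  obtain ⟨r, hr⟩ := hr
  have hdT : dimNat T = d + 1 := (Imperfect.dimNat_eq_of_primary g hgl hgf hr).trans hd
  have : Infinite (ResidueField T) := inferInstance
  obtain ⟨y, E, C', hy, hyr, hE, hbox⟩ := hB T (d + 1) (by omega) hdT
  refine hup.trans (le_trans ?_ hE)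
  exact_mod_cast hM p L d' hd' B D MoB T hsurj s (d + 1) (by omega) hsum Φ hΦ hthick y hy hyr E C'
    hbox

end Vale.Agent.P202.Mixed
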