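import Vale.Agent.P202.Mixed.Untilt.Main
import Vale.Agent.P202.Mixed.Main.Main
import Vale.Agent.P202.Mixed.Window.Main
import Vale.Agent.P202.Mixed.Slice.Main
import Vale.Agent.P202.Mixed.Levels.Stable
import Vale.Agent.P202.Mixed.Chart.Main
import Vale.Agent.P202.Mixed.Source.Main
import Vale.Agent.P202.Mixed.Cohen.SeriesFlat
import Vale.Agent.P202.Mixed.Domain
import Vale.Agent.P202.Mixed.Reduce.Box
import Vale.Agent.P202.Mixed.Reduce.Complete
import Vale.Agent.P202.Mixed.Reduce.Nagata
import Vale.Agent.P202.Mixed.Reduce.Lech

/-!
# P202 mixed characteristic: Lech's inequality
-/

noncomputable section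

namespace Vale.Agent.P202.Mixed

universe u

/-- The window inequality gives Lech's inequality for every flat local map. -/
theorem lech_of_window (hW : WindowStatement.{u}) : LechStatement.{u} :=
  Reduce.lechStatement
    (completeLech (domainLech Cohen.cohenStatement sourceStatement
      (Chart.chartStatement Cohen.seriesFlatStatement)
      (MainG.mainStatement hW stableStatement Untilt.chainStatement) boxStatement))
    (nagataStatement Cohen.cohenStatement sourceStatement)

/-- Lech's inequality for every flat local map of Noetherian local rings. -/
theorem lechStatement : LechStatement.{u} :=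
  lech_of_window (windowStatement Slice.sliceStatement stableStatement)

end Vale.Agent.P202.Mixed
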