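import Vale.Agent.P202.HomAlg.Pair

/-!
# P202 mixed characteristic: lengths of subquotients and of homology of pairs

`len P N` is the length of the image of `N` modulo `P`.
-/

noncomputable section

namespace Vale.Agent.P202.Mixed

universe uA

variable {A : Type uA} [CommRing A] {M : Type*} [AddCommGroup M] [Module A M]
  {M' : Type*} [AddCommGroup M'] [Module A M']

/-- The length of the image of `N` modulo `P`. -/
def len (P N : Submodule A M) : ℕ∞ := Module.length A ↥(N.map P.mkQ)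

theorem len_def (P N : Submodule A M) : len P N = Module.length A ↥(N.map P.mkQ) := rfl

theorem len_eq_quot (P N : Submodule A M) :
    len P N = Module.length A (↥N ⧸ P.comap N.subtype) := by
  have h1 : LinearMap.range (P.mkQ ∘ₗ N.subtype) = N.map P.mkQ := by
    rw [LinearMap.range_comp, Submodule.range_subtype]
  have h2 : LinearMap.ker (P.mkQ ∘ₗ N.subtype) = P.comap N.subtype := by
    rw [LinearMap.ker_comp, Submodule.ker_mkQ]
  rw [len_def, ← h1, ← (LinearMap.quotKerEquivRange (P.mkQ ∘ₗ N.subtype)).length_eq]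
  exact (Submodule.quotEquivOfEq _ _ h2).length_eq

/-- `len P N` only depends on `P` inside `N`. -/
theorem len_congr {P P' N : Submodule A M} (h : ∀ x ∈ N, x ∈ P ↔ x ∈ P') :
    len P N = len P' N := by
  rw [len_eq_quot, len_eq_quot,
    show P.comap N.subtype = P'.comap N.subtype from Submodule.ext fun x => h x x.2]

theorem len_mono {P N N' : Submodule A M} (h : N ≤ N') : len P N ≤ len P N' :=
  Module.length_le_of_injective _ (Submodule.inclusion_injective (Submodule.map_mono h))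

theorem map_mkQ_eq_bot {P N : Submodule A M} (h : N ≤ P) : N.map P.mkQ = ⊥ :=
  le_bot_iff.1 (Submodule.map_le_iff_le_comap.2 (by rwa [Submodule.comap_bot, Submodule.ker_mkQ]))

theorem len_eq_zero {P N : Submodule A M} (h : N ≤ P) : len P N = 0 := by
  rw [len_def, map_mkQ_eq_bot h]
  exact Module.length_bot

theorem len_bot (N : Submodule A M) : len (⊥ : Submodule A M) N = Module.length A N := by
  refine (Submodule.equivMapOfInjective _ ?_ N).symm.length_eq
  rw [← LinearMap.ker_eq_bot, Submodule.ker_mkQ]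

theorem len_top (P : Submodule A M) : len P ⊤ = Module.length A (M ⧸ P) := by
  rw [len_def, Submodule.map_top, Submodule.range_mkQ, Module.length_top]

theorem len_le_length (P N : Submodule A M) : len P N ≤ Module.length A M :=
  ((len_mono (le_top : N ≤ ⊤)).trans (len_top P).le).trans
    (Module.length_le_of_surjective _ P.mkQ_surjective)

theorem len_sup_left (P N : Submodule A M) {X : Submodule A M} (h : X ≤ P) :
    len P (N ⊔ X) = len P N := by
  rw [len_def, len_def, Submodule.map_sup,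
    map_mkQ_eq_bot h, sup_bot_eq]

/-- Additivity along a linear map. -/
theorem len_eq_add_map (f : M →ₗ[A] M') (P N : Submodule A M) (P' : Submodule A M')
    (h : ∀ x ∈ N, x ∈ P → f x ∈ P') :
    len P N = len P (N ⊓ P'.comap f) + len P' (N.map f) := by
  rw [len_eq_quot P N, len_eq_quot P (N ⊓ P'.comap f), len_eq_quot P' (N.map f)]
  let i : ↥(N ⊓ P'.comap f) →ₗ[A] N := Submodule.inclusion inf_le_left
  let p : N →ₗ[A] N.map f := f.submoduleMap N
  let ib := Submodule.mapQ (P.comap (N ⊓ P'.comap f).subtype) (P.comap N.subtype) i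
    (fun x hx => hx)
  let pb := Submodule.mapQ (P.comap N.subtype) (P'.comap (N.map f).subtype) p
    (fun x hx => h x x.2 hx)
  refine Module.length_eq_add_of_exact ib pb ?_ ?_ ?_
  · rw [injective_iff_map_eq_zero]
    intro q hq
    obtain ⟨x, rfl⟩ := Submodule.Quotient.mk_surjective _ q
    rw [Submodule.Quotient.mk_eq_zero]
    exact (Submodule.Quotient.mk_eq_zero (P.comap N.subtype) (x := i x)).1 hq
  · intro q
    obtain ⟨⟨_, x, hx, rfl⟩, rfl⟩ := Submodule.Quotient.mk_surjective _ q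
    exact ⟨Submodule.Quotient.mk ⟨x, hx⟩, rfl⟩
  · intro q
    obtain ⟨x, rfl⟩ := Submodule.Quotient.mk_surjective _ q
    refine (Submodule.Quotient.mk_eq_zero (P'.comap (N.map f).subtype) (x := p x)).trans ?_
    constructor
    · intro hx
      exact ⟨Submodule.Quotient.mk ⟨x.1, x.2, hx⟩, rfl⟩
    · rintro ⟨q, hq⟩
      obtain ⟨y, rfl⟩ := Submodule.Quotient.mk_surjective _ q
      replace hq := (Submodule.Quotient.eq (P.comap N.subtype) (x := i y) (y := x)).1 hq
      have hy : f (y : M) ∈ P' := y.2.2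
      have hd : f ((y : M) - x) ∈ P' := h _ (N.sub_mem y.2.1 x.2) hq
      have hfx : f (x : M) ∈ P' := by
        rw [map_sub] at hd
        simpa using P'.sub_mem hy hd
      exact hfx

/-- Subadditivity along a linear map. -/
theorem len_le_add_map (f : M →ₗ[A] M') (P N : Submodule A M) (P' : Submodule A M') :
    len P N ≤ len P (N ⊓ P'.comap f) + len P' (N.map f) := by
  have h1 := len_eq_add_map f (P ⊓ P'.comap f) N P' (fun x _ hx => hx.2)
  have h2 : len (P ⊓ P'.comap f) (N ⊓ P'.comap f) = len P (N ⊓ P'.comap f) :=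
    len_congr fun x hx => ⟨fun h => h.1, fun h => ⟨h, hx.2⟩⟩
  rw [← h2, ← h1, len_eq_quot, len_eq_quot]
  exact Module.length_le_of_surjective _
    (Submodule.factor_surjective (Submodule.comap_mono inf_le_left))

/-- A map does not increase lengths. -/
theorem len_map_le (f : M →ₗ[A] M') {P N : Submodule A M} {P' : Submodule A M'}
    (h : ∀ x ∈ N, x ∈ P → f x ∈ P') : len P' (N.map f) ≤ len P N := by
  rw [len_eq_add_map f P N P' h]
  exact le_add_self

theorem len_anti {P P' : Submodule A M} (h : P ≤ P') (N : Submodule A M) :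
    len P' N ≤ len P N := by
  simpa using len_map_le (LinearMap.id : M →ₗ[A] M) (N := N) fun x _ hx => h hx

/-- A map with small kernel bounds lengths from its image. -/
theorem len_le_map (f : M →ₗ[A] M') {P N : Submodule A M} {P' : Submodule A M'}
    (h : ∀ x ∈ N, f x ∈ P' → x ∈ P) : len P N ≤ len P' (N.map f) := by
  refine (len_le_add_map f P N P').trans ?_
  rw [len_eq_zero (P := P) (N := N ⊓ P'.comap f) (fun x hx => h x hx.1 hx.2), zero_add]

theorem len_triangle (P Q N : Submodule A M) : len P N ≤ len P Q + len Q N := by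
  have := len_le_add_map (LinearMap.id : M →ₗ[A] M) P N Q
  rw [Submodule.map_id, Submodule.comap_id] at this
  exact this.trans (add_le_add (len_mono inf_le_right) le_rfl)

/-- Exact additivity for nested submodules. -/
theorem len_add {P Q N : Submodule A M} (hPQ : P ≤ Q) (hQN : Q ≤ N) :
    len P N = len P Q + len Q N := by
  have := len_eq_add_map (LinearMap.id : M →ₗ[A] M) P N Q fun x _ hx => hPQ hx
  rwa [Submodule.map_id, Submodule.comap_id, inf_eq_right.2 hQN] at this

theorem len_sup_le (P N N' : Submodule A M) : len P (N ⊔ N') ≤ len P N + len P N' := by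
  refine (len_triangle P (N ⊔ P) (N ⊔ N')).trans (add_le_add ?_ ?_)
  · rw [len_sup_left _ _ le_rfl]
  · calc len (N ⊔ P) (N ⊔ N') = len (N ⊔ P) N' := by
          rw [sup_comm N N', len_sup_left _ _ le_sup_left]
      _ ≤ len P N' := len_anti le_sup_right N'

theorem len_finset_sup_le {ι : Type*} (s : Finset ι) (P : Submodule A M)
    (N : ι → Submodule A M) : len P (s.sup N) ≤ ∑ i ∈ s, len P (N i) := by
  classical
  induction s using Finset.induction_on with
  | empty => simp [len_eq_zero (show (⊥ : Submodule A M) ≤ P from bot_le)]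
  | insert i s his ih =>
    rw [Finset.sup_insert, Finset.sum_insert his]
    exact (len_sup_le _ _ _).trans (add_le_add le_rfl ih)

theorem len_iSup_le {ι : Type*} [Fintype ι] (P : Submodule A M) (N : ι → Submodule A M) :
    len P (⨆ i, N i) ≤ ∑ i, len P (N i) := by
  rw [← Finset.sup_univ_eq_iSup]
  exact len_finset_sup_le _ _ _

/-- Lengths in a finite product. -/
theorem len_pi_le {ι : Type*} [Fintype ι] {M₀ : ι → Type*} [∀ g, AddCommGroup (M₀ g)]
    [∀ g, Module A (M₀ g)] (φ : ∀ g, M →ₗ[A] M₀ g) {P N : Submodule A M}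
    (P₀ N₀ : ∀ g, Submodule A (M₀ g)) (hN : ∀ x ∈ N, ∀ g, φ g x ∈ N₀ g)
    (hP : ∀ x ∈ N, (∀ g, φ g x ∈ P₀ g) → x ∈ P) :
    len P N ≤ ∑ g, len (P₀ g) (N₀ g) := by
  let f : N →ₗ[A] (∀ g, ↥((N₀ g).map (P₀ g).mkQ)) := LinearMap.pi fun g =>
    LinearMap.codRestrict _ ((P₀ g).mkQ ∘ₗ φ g ∘ₗ N.subtype)
      fun x => ⟨_, hN x x.2 g, rfl⟩
  have hk : LinearMap.ker f ≤ P.comap N.subtype := fun x hx =>
    hP x x.2 fun g => (Submodule.Quotient.mk_eq_zero _).1
      (congrArg Subtype.val (congrFun (LinearMap.mem_ker.1 hx) g))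
  rw [len_eq_quot]
  refine (Module.length_le_of_surjective _ (Submodule.factor_surjective hk)).trans ?_
  refine (Module.length_le_of_injective
    ((LinearMap.range f).subtype ∘ₗ f.quotKerEquivRange.toLinearMap)
    ((Submodule.subtype_injective _).comp (LinearEquiv.injective _))).trans ?_
  rw [Module.length_pi_of_fintype]
  rfl

section Pairs

variable (D : Diff A M)

theorem bdries_mono {X X' Y Y' : Submodule A M} (hX : X ≤ X') (hY : Y ≤ Y') (j : ℤ) :
    D.bdries X Y j ≤ D.bdries X' Y' j :=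
  sup_le_sup (Submodule.map_mono (inf_le_inf_right _ hX)) (inf_le_inf_right _ hY)

theorem cycles_mono {X X' Y Y' : Submodule A M} (hX : X ≤ X') (hY : Y ≤ Y') (j : ℤ) :
    D.cycles X Y j ≤ D.cycles X' Y' j :=
  inf_le_inf (inf_le_inf_right _ hX) (Submodule.comap_mono hY)

theorem length_H (X Y : Submodule A M) (j : ℤ) :
    Module.length A (D.H X Y j) = len (D.bdries X Y j) (D.cycles X Y j) :=
  (len_eq_quot _ _).symm

/-- Homology lengths are subadditive in nested pairs. -/
theorem len_devissage {Y X W : Submodule A M} (hYX : Y ≤ X) (hXW : X ≤ W) (j : ℤ) :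
    len (D.bdries W Y j) (D.cycles W Y j) ≤
      len (D.bdries X Y j) (D.cycles X Y j) + len (D.bdries W X j) (D.cycles W X j) := by
  refine (len_le_add_map LinearMap.id _ _ (D.bdries W X j)).trans (add_le_add ?_ ?_)
  · rw [Submodule.comap_id]
    refine (len_mono (N' := D.cycles X Y j ⊔ D.bdries W Y j) ?_).trans ?_
    · rintro x ⟨hx, hxb⟩
      obtain ⟨-, hxd, hxY⟩ := D.mem_cycles.1 hx
      obtain ⟨w, ⟨hw, hw'⟩, y, ⟨hy, hy'⟩, e⟩ := D.mem_bdries.1 hxb
      rw [← e, add_comm]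
      refine Submodule.add_mem_sup (D.mem_cycles.2 ⟨hy, hy', ?_⟩) ?_
      · rwa [← e, map_add, D.d_d, zero_add] at hxY
      · exact D.mem_bdries.2 ⟨w, ⟨hw, hw'⟩, 0, ⟨Y.zero_mem, Submodule.zero_mem _⟩, add_zero _⟩
    · rw [len_sup_left _ _ le_rfl]
      exact len_anti (bdries_mono D hXW le_rfl j) _
  · rw [Submodule.map_id]
    exact len_mono (cycles_mono D le_rfl hYX j)

variable {D} {D' : Diff A M'} {φ : M →ₗ[A] M'} {X Y : Submodule A M} {X' Y' : Submodule A M'}

/-- A chain map of pairs. -/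
structure ChainPair (D : Diff A M) (D' : Diff A M') (φ : M →ₗ[A] M') (X Y : Submodule A M)
    (X' Y' : Submodule A M') : Prop where
  comm : ∀ x, φ (D.d x) = D'.d (φ x)
  deg : ∀ j x, x ∈ D.deg j → φ x ∈ D'.deg j
  mapX : ∀ x ∈ X, φ x ∈ X'
  mapY : ∀ x ∈ Y, φ x ∈ Y'
  stable : D.Stable X
  stable' : D'.Stable Y'

namespace ChainPair

variable (h : ChainPair D D' φ X Y X' Y')

/-- The cokernel of the map of pairs in one position. -/
def coker (D : Diff A M) (D' : Diff A M') (φ : M →ₗ[A] M') (X : Submodule A M)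
    (X' Y' : Submodule A M') (j : ℤ) : ℕ∞ :=
  len ((X ⊓ D.deg j).map φ ⊔ (Y' ⊓ D'.deg j)) (X' ⊓ D'.deg j)

/-- The kernel of the map of pairs in one position. -/
def kern (D : Diff A M) (φ : M →ₗ[A] M') (X Y : Submodule A M) (Y' : Submodule A M') (j : ℤ) :
    ℕ∞ :=
  len (Y ⊓ D.deg j) (X ⊓ D.deg j ⊓ Y'.comap φ)

include h

theorem map_cycles (j : ℤ) : (D.cycles X Y j).map φ ≤ D'.cycles X' Y' j := by
  rintro _ ⟨x, hx, rfl⟩
  obtain ⟨h1, h2, h3⟩ := D.mem_cycles.1 hx
  exact D'.mem_cycles.2 ⟨h.mapX _ h1, h.deg _ _ h2, h.comm x ▸ h.mapY _ h3⟩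

theorem map_bdries (j : ℤ) : (D.bdries X Y j).map φ ≤ D'.bdries X' Y' j := by
  rintro _ ⟨x, hx, rfl⟩
  obtain ⟨w, ⟨hw, hw'⟩, y, ⟨hy, hy'⟩, rfl⟩ := D.mem_bdries.1 hx
  exact D'.mem_bdries.2 ⟨φ w, ⟨h.mapX _ hw, h.deg _ _ hw'⟩, φ y, ⟨h.mapY _ hy, h.deg _ _ hy'⟩,
    by rw [map_add, h.comm]⟩

/-- The cokernel of the map on homology. -/
theorem coker_H_le (i j : ℤ) (hij : j = i + 1) :
    len (D'.bdries X' Y' j ⊔ (D.cycles X Y j).map φ) (D'.cycles X' Y' j) ≤
      coker D D' φ X X' Y' j + kern D φ X Y Y' i := by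
  let Q := (X ⊓ D.deg j).map φ ⊔ (Y' ⊓ D'.deg j)
  let P := D'.bdries X' Y' j ⊔ (D.cycles X Y j).map φ
  refine (len_le_add_map LinearMap.id P _ Q).trans ?_
  rw [add_comm, Submodule.map_id, Submodule.comap_id]
  refine add_le_add (len_mono fun x hx => ?_) ?_
  · obtain ⟨h1, h2, -⟩ := D'.mem_cycles.1 hx
    exact ⟨h1, h2⟩
  let S := (X ⊓ D.deg j) ⊓ (Y'.comap φ).comap D.d
  have hS : D'.cycles X' Y' j ⊓ Q ≤ S.map φ ⊔ D'.bdries X' Y' j := by
    rintro x ⟨hx, hxQ⟩
    obtain ⟨_, ⟨a, ha, rfl⟩, y, hy, rfl⟩ := Submodule.mem_sup.1 hxQ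
    refine Submodule.add_mem_sup ⟨a, ⟨ha, ?_⟩, rfl⟩ ?_
    · show φ (D.d a) ∈ Y'
      have h3 : D'.d (φ a + y) ∈ Y' := (D'.mem_cycles.1 hx).2.2
      rw [map_add] at h3
      rw [h.comm]
      simpa using Y'.sub_mem h3 (h.stable' _ hy.1)
    · exact D'.mem_bdries.2 ⟨0, ⟨X'.zero_mem, Submodule.zero_mem _⟩, y, hy,
        by rw [map_zero, zero_add]⟩
  refine (len_mono hS).trans ?_
  rw [len_sup_left _ _ le_sup_left]
  refine (len_map_le φ (P := D.cycles X Y j) (P' := P) fun x _ hx =>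
    Submodule.mem_sup_right ⟨x, hx, rfl⟩).trans ?_
  refine (len_le_map D.d (P' := Y ⊓ D.deg i) fun x hx hdx => ?_).trans (len_mono ?_)
  · exact D.mem_cycles.2 ⟨hx.1.1, hx.1.2, hdx.1⟩
  · rintro _ ⟨x, ⟨⟨hxX, hxd⟩, hx3⟩, rfl⟩
    refine ⟨⟨h.stable _ hxX, ?_⟩, hx3⟩
    have := D.d_deg j x hxd
    rwa [show j - 1 = i by omega] at this

/-- The kernel of the map on homology. -/
theorem ker_H_le (j i : ℤ) (hij : i = j + 1) :
    len (D.bdries X Y j) (D.cycles X Y j ⊓ (D'.bdries X' Y' j).comap φ) ≤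
      kern D φ X Y Y' j + coker D D' φ X X' Y' i := by
  let Q := (((X ⊓ D.deg i).map D.d).map φ) ⊔ (Y' ⊓ D'.deg j)
  refine (len_le_add_map φ _ _ Q).trans (add_le_add ?_ ?_)
  · refine (len_mono (N' := (X ⊓ D.deg j ⊓ Y'.comap φ) ⊔ D.bdries X Y j) ?_).trans ?_
    · rintro a ⟨⟨ha, -⟩, haQ⟩
      obtain ⟨_, ⟨_, ⟨w, hw, rfl⟩, rfl⟩, y, hy, e⟩ := Submodule.mem_sup.1 haQ
      obtain ⟨h1, h2, -⟩ := D.mem_cycles.1 ha
      have hw2 : w ∈ D.deg (j + 1) := hij ▸ hw.2
      have hdd : D.d w ∈ D.deg j := by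
        have := D.d_deg (j + 1) w hw2
        rwa [add_sub_cancel_right] at this
      rw [show a = (a - D.d w) + D.d w by abel]
      refine Submodule.add_mem_sup ⟨⟨X.sub_mem h1 (h.stable _ hw.1),
        Submodule.sub_mem _ h2 hdd⟩, ?_⟩ ?_
      · show φ (a - D.d w) ∈ Y'
        rw [map_sub, ← e, add_sub_cancel_left]
        exact hy.1
      · exact D.mem_bdries.2 ⟨w, ⟨hw.1, hw2⟩, 0, ⟨Y.zero_mem, Submodule.zero_mem _⟩,
          add_zero _⟩
    · rw [len_sup_left _ _ le_rfl]
      exact len_anti le_sup_right _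
  · refine (len_mono (N' := D'.bdries X' Y' j) ?_).trans ?_
    · rintro _ ⟨x, hx, rfl⟩
      exact hx.2
    · subst hij
      rw [Diff.bdries, len_sup_left _ _ le_sup_right]
      refine len_map_le D'.d fun x _ hx => ?_
      obtain ⟨_, ⟨a, ha, rfl⟩, y, hy, rfl⟩ := Submodule.mem_sup.1 hx
      rw [map_add, ← h.comm]
      refine Submodule.add_mem_sup ⟨_, ⟨a, ha, rfl⟩, rfl⟩ ⟨h.stable' _ hy.1, ?_⟩
      have := D'.d_deg (j + 1) y hy.2
      rwa [add_sub_cancel_right] at this

theorem len_target_le (i j : ℤ) (hij : j = i + 1) :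
    len (D'.bdries X' Y' j) (D'.cycles X' Y' j) ≤
      len (D.bdries X Y j) (D.cycles X Y j) +
        (coker D D' φ X X' Y' j + kern D φ X Y Y' i) := by
  refine (len_triangle _ (D'.bdries X' Y' j ⊔ (D.cycles X Y j).map φ) _).trans
    (add_le_add ?_ (h.coker_H_le i j hij))
  rw [sup_comm, len_sup_left _ _ le_rfl]
  exact len_map_le φ fun x _ hx => h.map_bdries j ⟨x, hx, rfl⟩

theorem len_source_le (j i : ℤ) (hij : i = j + 1) :
    len (D.bdries X Y j) (D.cycles X Y j) ≤
      len (D'.bdries X' Y' j) (D'.cycles X' Y' j) +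
        (kern D φ X Y Y' j + coker D D' φ X X' Y' i) := by
  refine (len_le_add_map φ _ _ (D'.bdries X' Y' j)).trans ?_
  rw [add_comm]
  exact add_le_add (len_mono (h.map_cycles j)) (h.ker_H_le j i hij)

end ChainPair

end Pairs

end Vale.Agent.P202.Mixed
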